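import Crest.Agent.N325.Lst.ListR

/-!
# Row 325 (helper70): local region growing

`ball` finds a radius `r < T * 2 ^ K` whose ball has a small cut, in time proportional to the volume
of that ball.  The balls come from a closure `dij` (local Dijkstra).
-/

set_option autoImplicit false

namespace Crest.Agent.N325.Bl

variable {g : Gl}

/-! ### binary search on `∑ r, cut r` -/

/-- an arc seen from the centre: distance of the tail, distance of the head, capacity -/
abbrev It := ℕ × ℕ × ℕ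

/-- the contribution of an arc to `∑ r ∈ [a, a + h), cut r` -/
def part (a h : ℕ) (i : It) : ℕ := i.2.2 * (min i.2.1 (a + h) - max i.1 a)

/-- `∑ r ∈ [a, a + h), cut r` -/
def tot (l : List It) (a h : ℕ) : ℕ := (l.map (part a h)).sum

theorem part_add (a h k : ℕ) (i : It) : part a (h + k) i = part a h i + part (a + h) k i := by
  unfold part
  rw [← mul_add]
  congr 1
  omega

theorem tot_add (l : List It) (a h k : ℕ) : tot l a (h + k) = tot l a h + tot l (a + h) k := by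
  unfold tot
  rw [← List.sum_map_add]
  exact congrArg _ (List.map_congr_left fun i _ => part_add a h k i)

/-- keep the better half of the interval -/
def half (l : List It) (s : ℕ × ℕ) : R (ℕ × ℕ) :=
  sumL (part s.1 (s.2 / 2)) l >>= fun x => nat (s.1 + s.2 / 2) >>= fun b =>
    sumL (part b (s.2 / 2)) l >>= fun y => pure (if x ≤ y then s.1 else b, s.2 / 2)

/-- the binary search -/
def bs (l : List It) (K a H : ℕ) : R (ℕ × ℕ) := forN (fun _ => half l) K 0 (a, H)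

theorem sp_bs (l : List It) (K a : ℕ) (h1 : tot l a (2 ^ K) ≤ g.X) (h2 : a + 2 ^ K ≤ g.X) :
    Sp g (bs l K a (2 ^ K)) fun r t => a ≤ r.1 ∧ r.1 < a + 2 ^ K ∧
      2 ^ K * tot l r.1 1 ≤ tot l a (2 ^ K) ∧ t ≤ K * (2 * l.length + 3) + 1 := by
  refine (sp_forN' (fun j (s : ℕ × ℕ) => s.2 = 2 ^ (K - j) ∧ a ≤ s.1 ∧ s.1 + s.2 ≤ a + 2 ^ K ∧
    2 ^ j * tot l s.1 s.2 ≤ tot l a (2 ^ K)) (2 * l.length + 2) (fun j s _ hj k => ?_)
    (s := (a, 2 ^ K)) ⟨rfl, le_rfl, le_rfl, by simp⟩).mono fun r t k => ?_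
  · obtain ⟨k1, k2, k3, k4⟩ := k
    have e : s.2 = s.2 / 2 + s.2 / 2 := by
      rw [k1, show K - j = K - (j + 1) + 1 by omega, pow_succ]; omega
    have e' : s.2 / 2 = 2 ^ (K - (j + 1)) := by
      rw [k1, show K - j = K - (j + 1) + 1 by omega, pow_succ]; omega
    have e2 := tot_add l s.1 (s.2 / 2) (s.2 / 2)
    rw [← e] at e2
    have e3 : tot l s.1 s.2 ≤ g.X := (Nat.le_mul_of_pos_left _ (by positivity)).trans (k4.trans h1)
    refine (sp_sumL _ l (by change tot l _ _ ≤ _; omega)).bind fun x t kx => ?_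
    refine sp_bind.2 (sp_nat.2 ⟨by omega, ?_⟩)
    refine (sp_sumL _ l (by change tot l _ _ ≤ _; omega)).bind fun y u ky => ?_
    obtain ⟨rfl, kt⟩ := kx
    obtain ⟨rfl, ku⟩ := ky
    refine ⟨⟨e', ?_⟩, by omega⟩
    rw [pow_succ, mul_assoc]
    unfold tot at e2 k4 ⊢
    dsimp only
    split_ifs with c
    · exact ⟨k2, by omega, (Nat.mul_le_mul_left _ (by omega)).trans k4⟩
    · exact ⟨by omega, by omega, (Nat.mul_le_mul_left _ (by omega)).trans k4⟩
  · obtain ⟨⟨k1, k2, k3, k4⟩, k5⟩ := k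
    rw [zero_add] at k1 k4
    rw [Nat.sub_self, pow_zero] at k1
    rw [k1] at k3 k4
    exact ⟨k2, by omega, k4, k5⟩

/-! ### balls -/

/-- vertices, distances, marks -/
abbrev Bal := List ℕ × Arr ℕ × Arr Bool

/-- the ball of radius `r`; `W x d` = there is a walk of length `d` from the centre to `x` -/
structure IsBall (W : ℕ → ℕ → Prop) (r : ℕ) (B : Bal) : Prop where
  nd : B.1.Nodup
  vis : ∀ x, B.2.2.get x = true ↔ x ∈ B.1
  mem : ∀ x, x ∈ B.1 ↔ ∃ d ≤ r, W x d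
  dw : ∀ x ∈ B.1, W x (B.2.1.get x)
  dmin : ∀ x ∈ B.1, ∀ d, W x d → B.2.1.get x ≤ d

theorem sum_le_of_sub {L L' : List ℕ} (h : L.Nodup) (h' : L'.Nodup) {f f' : ℕ → ℕ}
    (s : ∀ x ∈ L, x ∈ L' ∧ f x ≤ f' x) : (L.map f).sum ≤ (L'.map f').sum := by
  rw [← List.sum_toFinset _ h, ← List.sum_toFinset _ h']
  exact (Finset.sum_le_sum fun x k => (s x (List.mem_toFinset.1 k)).2).trans
    (Finset.sum_le_sum_of_subset fun x k => List.mem_toFinset.2 (s x (List.mem_toFinset.1 k)).1)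

variable (adj : ℕ → List ℕ) (ok : ℕ → ℕ → Bool) (hd cap : ℕ → ℕ → ℕ)

/-- the volume -/
def vol (L : List ℕ) : ℕ := (L.map fun x => 1 + (adj x).length).sum

/-- the capacity of the arcs leaving `L` -/
def cut (L : List ℕ) : ℕ :=
  (L.map fun x => ((adj x).map fun e => if ok x e = true ∧ hd x e ∉ L then cap x e else 0).sum).sum

/-- the volume -/
def volR (L : List ℕ) : R ℕ := foldL (fun x s => lenL (adj x) >>= fun k => nat (s + 1 + k)) L 0

theorem sp_volR (L : List ℕ) (h : vol adj L ≤ g.X) :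
    Sp g (volR adj L) fun r t => r = vol adj L ∧ t ≤ 2 * vol adj L + 1 := by
  refine (sp_foldL' (fun l s => s + vol adj l = vol adj L) (fun x => (adj x).length + 1)
    (fun x l s k => (sp_lenL _).bind fun n t k' => ?_) (l := L) (s := 0) (zero_add _)).mono
    fun r t k => ⟨by simpa [vol] using k.1, k.2.trans ?_⟩
  · simp only [vol, List.map_cons, List.sum_cons] at k h ⊢
    exact sp_nat.2 ⟨by omega, by omega, by omega⟩
  · rw [vol, ← List.sum_map_mul_left]
    exact Nat.succ_le_succ (List.sum_le_sum fun x _ => by omega)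

/-- the arc `e` at `x` seen from the centre; `ρ` = radius -/
def item (B : Bal) (ρ x e : ℕ) : It :=
  (B.2.1.get x, if B.2.2.get (hd x e) then B.2.1.get (hd x e) else ρ, if ok x e then cap x e else 0)

/-- all arcs -/
def items (B : Bal) (ρ : ℕ) : List It := B.1.flatMap fun x => (adj x).map (item ok hd cap B ρ x)

theorem tot_items (B : Bal) (ρ a h : ℕ) : tot (items adj ok hd cap B ρ) a h =
    (B.1.map fun x => ((adj x).map fun e => part a h (item ok hd cap B ρ x e)).sum).sum := by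
  unfold tot items
  induction B.1 with
  | nil => rfl
  | cons x L ih => simp [ih, Function.comp_def]

theorem length_items (B : Bal) (ρ : ℕ) :
    (items adj ok hd cap B ρ).length + B.1.length = vol adj B.1 := by
  unfold items vol
  induction B.1 with
  | nil => rfl
  | cons x L ih => simp at ih ⊢; omega

/-- the next larger ball and its volume -/
def nxt (dij : ℕ → R Bal) (H a v : ℕ) : R (ℕ × ℕ × Bal × ℕ) :=
  nat (a + H) >>= fun b => call dij b >>= fun B => volR adj B.1 >>= fun w => pure (a, v, B, w)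

/-- grow until the volume does not double -/
def grow (dij : ℕ → R Bal) (T H : ℕ) : R (ℕ × ℕ × Bal × ℕ) :=
  nxt adj dij H 0 1 >>= whileF (fun s => decide (2 * s.2.1 < s.2.2.2))
    (fun s => nat (s.1 + H) >>= fun a => nxt adj dij H a s.2.2.2) (T + 1)

/-- **region growing**: the radius and the ball -/
def ball (dij : ℕ → R Bal) (T K H : ℕ) : R (ℕ × Bal) :=
  grow adj dij T H >>= fun s => nat (s.1 + H) >>= fun ρ =>
    flatMapL (fun x => mapP (item ok hd cap s.2.2.1 ρ x) (adj x)) s.2.2.1.1 >>= fun l =>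
      bs l K s.1 H >>= fun r => call dij r.1 >>= fun B => pure (r.1, B)

variable {adj ok hd cap} {W : ℕ → ℕ → Prop}

theorem IsBall.vol_le {r r' : ℕ} {B B' : Bal} (h : IsBall W r B) (h' : IsBall W r' B') (k : r ≤ r') :
    vol adj B.1 ≤ vol adj B'.1 :=
  sum_le_of_sub h.nd h'.nd fun x hx => by
    obtain ⟨d, a, b⟩ := (h.mem x).1 hx
    exact ⟨(h'.mem x).2 ⟨d, a.trans k, b⟩, le_rfl⟩

theorem IsBall.vol_pos {r s : ℕ} {B : Bal} (h : IsBall W r B) (h0 : W s 0) : 1 ≤ vol adj B.1 :=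
  (Nat.le_add_right 1 _).trans (List.le_sum_of_mem
    (List.mem_map.2 ⟨s, (h.mem s).2 ⟨0, Nat.zero_le _, h0⟩, rfl⟩))

theorem IsBall.le {r : ℕ} {B : Bal} (h : IsBall W r B) {x : ℕ} (hx : x ∈ B.1) : B.2.1.get x ≤ r := by
  obtain ⟨d, a, b⟩ := (h.mem x).1 hx
  exact (h.dmin x hx d b).trans a

theorem sp_grow {dij : ℕ → R Bal} {T H c s U : ℕ} (h0 : W s 0) (hT : 1 ≤ T)
    (hd : ∀ r ≤ T * H, Sp g (dij r) fun B t => IsBall W r B ∧ t ≤ c * (vol adj B.1 + 1))
    (hV : ∀ r B, IsBall W r B → vol adj B.1 ≤ U) (hU : U ≤ 2 ^ T) (h1 : U ≤ g.X)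
    (h2 : T * H ≤ g.X) :
    Sp g (grow adj dij T H) fun p t => p.1 + H ≤ T * H ∧ IsBall W (p.1 + H) p.2.2.1 ∧
      (∀ r B, p.1 ≤ r → IsBall W r B → vol adj p.2.2.1.1 ≤ 2 * vol adj B.1) ∧
      t ≤ T * ((c + 3) * (vol adj p.2.2.1.1 + 1)) + 1 := by
  have hn : ∀ a v, a + H ≤ T * H → Sp g (nxt adj dij H a v) fun p t => p.1 = a ∧ p.2.1 = v ∧
      IsBall W (a + H) p.2.2.1 ∧ p.2.2.2 = vol adj p.2.2.1.1 ∧
      t + 1 ≤ (c + 3) * (p.2.2.2 + 1) := fun a v k =>
    sp_bind.2 (sp_nat.2 ⟨k.trans h2, sp_bind.2 (sp_call.2 ((hd _ k).mono fun B t kB =>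
      (sp_volR adj B.1 ((hV _ _ kB.1).trans h1)).bind fun w u kw =>
        ⟨rfl, rfl, kB.1, kw.1, by
          have := kB.2; have := kw.2; have := kB.1.vol_pos (adj := adj) h0
          dsimp only; rw [kw.1, add_mul]; omega⟩))⟩)
  refine (hn 0 1 (by rw [zero_add]; exact Nat.le_mul_of_pos_left _ hT)).bind fun p t kp => ?_
  refine (sp_whileF (fun (p : ℕ × ℕ × Bal × ℕ) t => ∃ j, j < T ∧ p.1 = j * H ∧ 2 ^ j ≤ p.2.1 ∧
    (∀ r B, p.1 ≤ r → IsBall W r B → p.2.1 ≤ vol adj B.1) ∧ IsBall W (p.1 + H) p.2.2.1 ∧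
    p.2.2.2 = vol adj p.2.2.1.1 ∧ t ≤ (j + 1) * ((c + 3) * (p.2.2.2 + 1)))
    (fun p => T - Nat.log 2 p.2.1) (fun p t k e => ?_) (t := t) (n := T + 1)
    ⟨0, hT, by rw [kp.1, zero_mul], by rw [kp.2.1]; exact le_rfl,
      fun r B _ hB => by rw [kp.2.1]; exact hB.vol_pos h0, by rw [kp.1]; exact kp.2.2.1,
      kp.2.2.2.1, by have := kp.2.2.2.2; omega⟩ (by omega)).mono fun q u k => ?_
  · obtain ⟨j, k1, k2, k3, k4, k5, k6, k7⟩ := k
    have e := of_decide_eq_true e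
    have e1 : p.2.2.2 ≤ 2 ^ T := k6 ▸ (hV _ _ k5).trans hU
    have e2 : 2 ^ (j + 1) < 2 ^ T := by rw [pow_succ]; omega
    have e3 := (Nat.pow_lt_pow_iff_right one_lt_two).1 e2
    have e4 : p.1 + H + H ≤ T * H := by
      rw [k2]; exact le_trans (by rw [Nat.succ_mul, add_mul]; omega) (Nat.mul_le_mul_right H e3)
    refine sp_bind.2 (sp_nat.2 ⟨by omega, (hn _ _ e4).mono fun q u kq => ?_⟩)
    obtain ⟨q1, q2, q3, q4, q5⟩ := kq
    have e5 : p.2.2.2 ≤ q.2.2.2 := by rw [k6, q4]; exact k5.vol_le q3 (Nat.le_add_right _ _)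
    have e6 := Nat.mul_le_mul_left (j + 1) (Nat.mul_le_mul_left (c + 3) (Nat.succ_le_succ e5))
    refine ⟨⟨j + 1, e3, by rw [q1, k2, add_mul, one_mul], by rw [q2, pow_succ]; omega,
      fun r B a b => by rw [q2, k6]; exact k5.vol_le b (q1 ▸ a), q1 ▸ q3, q4, by
        rw [add_mul (j + 1), one_mul]; simp only [Nat.succ_eq_add_one] at e6; omega⟩, ?_⟩
    have p0 : p.2.1 ≠ 0 := by have := Nat.two_pow_pos j; omega
    have e7 : Nat.log 2 p.2.1 + 1 ≤ Nat.log 2 q.2.1 := by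
      rw [q2, ← Nat.log_mul_base one_lt_two p0]; exact Nat.log_mono_right (by omega)
    have e8 : Nat.log 2 p.2.1 < T := Nat.log_lt_of_lt_pow p0 (by omega)
    omega
  · obtain ⟨e, u', rfl, j, k1, k2, k3, k4, k5, k6, k7⟩ := k
    have e := of_decide_eq_false e
    have e6 := Nat.mul_le_mul_right ((c + 3) * (q.2.2.2 + 1)) (Nat.succ_le_of_lt k1)
    refine ⟨by rw [k2]; exact le_trans (by rw [Nat.succ_mul]) (Nat.mul_le_mul_right H k1), k5,
      fun r B a b => by have := k4 r B a b; omega, ?_⟩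
    rw [← k6]; simp only [Nat.succ_eq_add_one] at e6; omega

/-- **region growing** -/
theorem sp_ball {ln : ℕ → ℕ → ℕ} {dij : ℕ → R Bal} {T K Z c s U : ℕ} (h0 : W s 0) (hT : 1 ≤ T)
    (hW : ∀ x d e, W x d → e ∈ adj x → ok x e = true → W (hd x e) (d + ln x e))
    (hZ : ∀ x d e, W x d → e ∈ adj x → ok x e = true → cap x e * ln x e ≤ Z)
    (hD : ∀ r ≤ T * 2 ^ K, Sp g (dij r) fun B t => IsBall W r B ∧ t ≤ c * (vol adj B.1 + 1))
    (hV : ∀ r B, IsBall W r B → vol adj B.1 ≤ U) (hU : U ≤ 2 ^ T) (h1 : U ≤ g.X)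
    (h2 : T * 2 ^ K ≤ g.X) (h3 : Z * U ≤ g.X) :
    Sp g (ball adj ok hd cap dij T K (2 ^ K)) fun p t => p.1 < T * 2 ^ K ∧ IsBall W p.1 p.2 ∧
      2 ^ K * cut adj ok hd cap p.2.1 ≤ 2 * Z * vol adj p.2.1 ∧
      t ≤ (3 * (T + 1) * (c + 3) + 7 * K + 20) * vol adj p.2.1 := by
  refine (sp_grow h0 hT hD hV hU h1 h2).bind fun p t kp => ?_
  obtain ⟨a, v, B, w⟩ := p
  obtain ⟨k1, k2, k3, k4⟩ := kp
  dsimp only at k1 k2 k3 k4 ⊢
  refine sp_bind.2 (sp_nat.2 ⟨k1.trans h2, ?_⟩)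
  refine (sp_flatMapL (fun x => (adj x).map (item ok hd cap B (a + 2 ^ K) x))
    (fun x => 2 * (adj x).length + 2) fun x _ => (sp_mapP _ _).mono fun r t k => ⟨k.1, k.2.le⟩).bind
    fun l u kl => ?_
  obtain ⟨rfl, ku⟩ := kl
  change u ≤ _ + 2 * (items adj ok hd cap B (a + 2 ^ K)).length + _ + _ at ku
  have e1 := length_items adj ok hd cap B (a + 2 ^ K)
  have e2 : (B.1.map fun x => 2 * (adj x).length + 2).sum = 2 * vol adj B.1 := by
    rw [vol, ← List.sum_map_mul_left]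
    exact congrArg _ (List.map_congr_left fun x _ => by omega)
  have e3 : tot (items adj ok hd cap B (a + 2 ^ K)) a (2 ^ K) ≤ Z * vol adj B.1 := by
    rw [tot_items, vol, ← List.sum_map_mul_left]
    refine List.sum_le_sum fun x hx => (List.sum_le_card_nsmul _ Z fun y hy => ?_).trans
      (by rw [List.length_map, smul_eq_mul, mul_comm]; exact Nat.mul_le_mul_left _ (by omega))
    obtain ⟨e, he, rfl⟩ := List.mem_map.1 hy
    unfold part item
    dsimp only
    by_cases o : ok x e = true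
    · rw [if_pos o]
      refine le_trans (Nat.mul_le_mul_left _ ?_) (hZ x _ e (k2.dw x hx) he o)
      have w := hW x _ e (k2.dw x hx) he o
      split_ifs with i
      · have := k2.dmin _ ((k2.vis _).1 i) _ w; omega
      · have : ¬B.2.1.get x + ln x e ≤ a + 2 ^ K := fun c =>
          i ((k2.vis _).2 ((k2.mem _).2 ⟨_, c, w⟩))
        omega
    · rw [if_neg o, zero_mul]; exact Nat.zero_le _
  refine (sp_bs (items adj ok hd cap B (a + 2 ^ K)) K a
    (e3.trans ((Nat.mul_le_mul_left _ (hV _ _ k2)).trans h3)) (k1.trans h2)).bind fun r u2 kr => ?_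
  obtain ⟨r1, r2, r3, r4⟩ := kr
  refine sp_bind.2 (sp_call.2 ((hD r.1 (by omega)).mono fun B' u3 kB => ?_))
  obtain ⟨b1, b2⟩ := kB
  have e4 := k3 _ _ r1 b1
  have e5 := b1.vol_pos (adj := adj) h0
  refine ⟨by omega, b1, le_trans (Nat.mul_le_mul_left _ ?_) (r3.trans (e3.trans ?_)), ?_⟩
  · rw [tot_items]
    refine sum_le_of_sub b1.nd k2.nd fun x hx => ?_
    obtain ⟨d, d1, d2⟩ := (b1.mem x).1 hx
    have hx' : x ∈ B.1 := (k2.mem x).2 ⟨d, by omega, d2⟩
    refine ⟨hx', List.sum_le_sum fun e he => ?_⟩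
    split_ifs with i
    · unfold part item
      dsimp only
      rw [if_pos i.1]
      refine Nat.le_mul_of_pos_right _ ?_
      have := k2.dmin x hx' d d2
      split_ifs with j
      · have : ¬B.2.1.get (hd x e) ≤ r.1 := fun c =>
          i.2 ((b1.mem _).2 ⟨_, c, k2.dw _ ((k2.vis _).1 j)⟩)
        omega
      · omega
    · exact Nat.zero_le _
  · rw [mul_comm 2 Z, mul_assoc]; exact Nat.mul_le_mul_left _ e4
  · dsimp only
    generalize vol adj B'.1 = V at *
    generalize vol adj B.1 = V' at *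
    generalize (items adj ok hd cap B (a + 2 ^ K)).length = n at *
    have f1 : T * ((c + 3) * (V' + 1)) ≤ T * ((c + 3) * (3 * V)) := by gcongr; omega
    have f2 : K * (2 * n + 3) ≤ K * (7 * V) := by gcongr; omega
    have f3 : c * (V + 1) ≤ (c + 3) * (3 * V) := by gcongr <;> omega
    have f4 : (3 * (T + 1) * (c + 3) + 7 * K + 20) * V =
        T * ((c + 3) * (3 * V)) + (c + 3) * (3 * V) + K * (7 * V) + 20 * V := by ring
    omega

end Crest.Agent.N325.Bl
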