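import Crest.Agent.N325.Bl.Ball
import Crest.Agent.N325.Dj.Dij
import Crest.Agent.N325.Lst.ListImpl

/-!
# Row 325 (helper70): region growing on the local Dijkstra search
-/

set_option autoImplicit false

namespace Crest.Agent.N325.Bl

open Dj

variable {g : Gl}

/-- the ball of radius `r` around `s` -/
def dijB (G : Dg) (B fu s r : ℕ) : R Bal :=
  dij G B r fu [(s, 0)] >>= fun o => pure (o.1, o.2.1, o.2.2.2)

/-- **region growing** around `s` -/
def ballD (G : Dg) (cap : ℕ → ℕ → ℕ) (B fu T K H s : ℕ) : R (ℕ × Bal) :=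
  ball G.adj G.ok G.hd cap (dijB G B fu s) T K H

/-- **region growing**: `V` contains everything that can be reached from `s` -/
theorem sp_ballD {G : Dg} {cap : ℕ → ℕ → ℕ} {B fu T K Z s U : ℕ} (V : Finset ℕ) (hT : 1 ≤ T)
    (hV : ∀ x d, Wk G [(s, 0)] x d → x ∈ V) (hv : ∑ x ∈ V, (1 + (G.adj x).length) ≤ U)
    (hU : U ≤ 2 ^ T)
    (hZ : ∀ x ∈ V, ∀ e ∈ G.adj x, G.ok x e = true → cap x e * G.ln x e ≤ Z)
    (hB : T * 2 ^ K < 2 ^ B) (hfu : 1 + U < fu) (h1 : U ≤ g.X) (h2 : T * 2 ^ K ≤ g.X)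
    (h3 : Z * U ≤ g.X) :
    Sp g (ballD G cap B fu T K (2 ^ K) s) fun p t => p.1 < T * 2 ^ K ∧
      IsBall (Wk G [(s, 0)]) p.1 p.2 ∧
      2 ^ K * cut G.adj G.ok G.hd cap p.2.1 ≤ 2 * Z * vol G.adj p.2.1 ∧
      t ≤ (3 * (T + 1) * (3 * B + 10) + 7 * K + 20) * vol G.adj p.2.1 := by
  have hv' : ∀ r (L : List ℕ), L.Nodup → (∀ x ∈ L, ∃ d ≤ r, Wk G [(s, 0)] x d) →
      Dj.vol G L ≤ U := fun r L a b => (vol_le (fun x d k _ => hV x d k) L a b).trans hv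
  refine sp_ball (c := 3 * B + 7) (ln := G.ln) (s := s) (.base List.mem_cons_self) hT
    (fun x d e a b c => a.step b c) (fun x d e a b c => hZ x (hV x d a) e b c)
    (fun r hr => (sp_dij (by omega) (hv' r) (by simpa using hfu)).bind fun o t k =>
      ⟨⟨k.1.nd, k.1.vis, fun x => k.1.mem, fun x hx => (k.1.wk x hx).1,
        fun x hx d w => k.1.le hx w⟩, ?_⟩)
    (fun r B' k => hv' r _ k.nd fun x hx => (k.mem x).1 hx) hU h1 h2 h3
  have := k.2
  change t + 0 ≤ (3 * B + 7) * (Dj.vol G o.1 + 1)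
  rw [List.length_singleton] at this
  nlinarith [Nat.zero_le (Dj.vol G o.1)]

/-- duals fall by at most `c` per unit of length -/
theorem dual_le {G : Dg} {s : ℕ} {y : ℕ → ℝ} {c : ℝ} (P : ℕ → Prop) (h0 : P s)
    (h : ∀ x e, P x → e ∈ G.adj x → G.ok x e = true →
      P (G.hd x e) ∧ y x - c * G.ln x e ≤ y (G.hd x e))
    {x d : ℕ} (w : Wk G [(s, 0)] x d) : P x ∧ y s - c * d ≤ y x := by
  generalize hS : [(s, 0)] = S at w
  induction w with
  | base k =>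
    rw [← hS, List.mem_singleton, Prod.mk.injEq] at k
    obtain ⟨rfl, rfl⟩ := k
    exact ⟨h0, by simp⟩
  | step _ a b ih =>
    obtain ⟨k1, k2⟩ := h _ _ ih.1 a b
    refine ⟨k1, ?_⟩
    push_cast
    linarith [ih.2]

theorem IsBall.dual {G : Dg} {s r : ℕ} {B : Bal} (hB : IsBall (Wk G [(s, 0)]) r B) {y : ℕ → ℝ}
    {c : ℝ} (hc : 0 ≤ c) (P : ℕ → Prop) (h0 : P s)
    (h : ∀ x e, P x → e ∈ G.adj x → G.ok x e = true →
      P (G.hd x e) ∧ y x - c * G.ln x e ≤ y (G.hd x e))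
    {x : ℕ} (hx : x ∈ B.1) : P x ∧ y s - c * r ≤ y x := by
  obtain ⟨d, a, w⟩ := (hB.mem x).1 hx
  obtain ⟨k1, k2⟩ := dual_le P h0 h w
  have : c * d ≤ c * r := mul_le_mul_of_nonneg_left (by exact_mod_cast a) hc
  exact ⟨k1, by linarith⟩

theorem IsBall.centre {G : Dg} {s r : ℕ} {B : Bal} (hB : IsBall (Wk G [(s, 0)]) r B) : s ∈ B.1 :=
  (hB.mem s).2 ⟨0, Nat.zero_le _, .base List.mem_cons_self⟩

/-! ### implementation -/

variable {α : Type} [Rp α]

@[fun_prop] theorem Impl.bs {l : α → List It} {K a H : α → ℕ} (hl : Pu true l) (hK : Pu true K)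
    (ha : Pu true a) (hH : Pu true H) : Impl fun x => bs (l x) (K x) (a x) (H x) := by
  unfold Bl.bs half part; impl

@[fun_prop] theorem Impl.ball {adj : α → ℕ → List ℕ} {ok : α → ℕ → ℕ → Bool}
    {hd cap : α → ℕ → ℕ → ℕ} {dij : α → ℕ → R Bal} {T K H : α → ℕ}
    (h1 : Pu true fun p : α × ℕ => adj p.1 p.2)
    (h2 : Pu false fun p : α × ℕ × ℕ => ok p.1 p.2.1 p.2.2)
    (h3 : Pu true fun p : α × ℕ × ℕ => hd p.1 p.2.1 p.2.2)
    (h4 : Pu true fun p : α × ℕ × ℕ => cap p.1 p.2.1 p.2.2)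
    (h5 : Impl fun p : α × ℕ => dij p.1 p.2) (hT : Pu true T) (hK : Pu true K) (hH : Pu true H) :
    Impl fun x => ball (adj x) (ok x) (hd x) (cap x) (dij x) (T x) (K x) (H x) := by
  have h6 : Pu true dij := Pu.lam h5
  unfold Bl.ball grow nxt volR item; impl

end Crest.Agent.N325.Bl
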