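import Crest.Agent.N325.P2.Defs
import Crest.Agent.N325.Lst.ListR

/-!
# Row 325, part II (helper70): DROP — dissolving a list of classes, the data
-/

set_option autoImplicit false
open Finset

namespace Crest.Agent.N325.Bl

open Crest.Agent.N325.P2 Crest.Agent.N325.Mt Crest.Agent.N325.Bf

variable {g : Gl} {G : Gf} {d d2 : Dt} {Y V O : List ℕ}

/-- the dissolved vertices: members of the classes of `Y` and the inner mates of their bases -/
def inV (G : Gf) (d : Dt) (Y : List ℕ) (v : ℕ) : Prop :=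
  v < G.n ∧ ((d.st.get v = 2 ∧ d.cls.get v ∈ Y) ∨ (d.st.get v = 1 ∧ d.cls.get (d.mt.get v) ∈ Y))

/-- `V` = the dissolved vertices, `O` = the darts with an end in `V` -/
structure Dis (G : Gf) (d : Dt) (Y V O : List ℕ) : Prop where
  cl : ∀ c ∈ Y, isC G d c
  ndY : Y.Nodup
  nd : V.Nodup
  mV : ∀ v, v ∈ V ↔ inV G d Y v
  len : V.length ≤ (Y.map fun c => d.cw.get c + 1).sum
  mO : ∀ o, o ∈ O ↔ o < G.nd ∧ (G.tl.get o ∈ V ∨ G.hd o ∈ V)
  lenO : O.length ≤ 6 * V.length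

/-- `d2` = `d` after the vertices of `V` are dissolved; the matching may change on `V` -/
structure IsDrop (G : Gf) (d : Dt) (V O : List ℕ) (d2 : Dt) : Prop where
  isM : IsM (range G.n) G.E d2.mt.get
  mt : ∀ v, v ∉ V → d2.mt.get v = d.mt.get v
  st : ∀ v, d2.st.get v = if v ∈ V then (if d2.mt.get v = v then 2 else 0) else d.st.get v
  cls : ∀ v, d2.cls.get v = if v ∈ V then v else d.cls.get v
  mem : ∀ v, d2.mem.get v = if v ∈ V then [v] else d.mem.get v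
  cw : ∀ v, d2.cw.get v = if v ∈ V then 1 else d.cw.get v
  bs : ∀ v, d2.bs.get v = if v ∈ V then v else d.bs.get v
  pr : ∀ o, d2.pr.get o = if o ∈ O then false else d.pr.get o
  Q : d2.Q = O.reverse ++ d.Q

/-- the vertices dissolved with the class `c` -/
def vs1 (d : Dt) (c : ℕ) : List ℕ :=
  if d.st.get (d.mt.get (d.bs.get c)) = 1 then d.mt.get (d.bs.get c) :: d.mem.get c else d.mem.get c

/-- the dissolved vertices and their darts -/
def disR (G : Gf) (d : Dt) (Y : List ℕ) : R (List ℕ × List ℕ) := do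
  let V ← flatMapP (vs1 d) Y
  let O ← flatMapP G.adj.get V
  let O' ← rvApp O O
  pure (V, O')

/-- the new data -/
def dropD (d : Dt) (V O : List ℕ) (m : Arr ℕ) : R Dt := do
  let st ← setAllP (fun v => if m.get v = v then 2 else 0) V d.st
  let cls ← setAllP (fun v => v) V d.cls
  let mem ← setAllP (fun v => [v]) V d.mem
  let cw ← setAllP (fun _ => 1) V d.cw
  let bs ← setAllP (fun v => v) V d.bs
  let pr ← setAllP (fun _ => false) O d.pr
  let Q ← revAppL O d.Q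
  pure ⟨st, cls, mem, cw, bs, m, pr, Q⟩

theorem sp_dropD {m : Arr ℕ} (h1 : IsM (range G.n) G.E m.get)
    (h2 : ∀ v, v ∉ V → m.get v = d.mt.get v) : Sp g (dropD d V O m) fun r t =>
      IsDrop G d V O r ∧ r.mt = m ∧ t ≤ 5 * V.length + 2 * O.length + 7 :=
  (sp_setAllP _ _ _).bind fun _ _ k1 => (sp_setAllP _ _ _).bind fun _ _ k2 =>
    (sp_setAllP _ _ _).bind fun _ _ k3 => (sp_setAllP _ _ _).bind fun _ _ k4 =>
      (sp_setAllP _ _ _).bind fun _ _ k5 => (sp_setAllP _ _ _).bind fun _ _ k6 =>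
        (sp_revAppL _ _).bind fun _ _ k7 =>
          ⟨⟨h1, h2, k1.1, k2.1, k3.1, k4.1, k5.1, k6.1, k7.1⟩, rfl, by
            rw [k1.2, k2.2, k3.2, k4.2, k5.2, k6.2, k7.2]; omega⟩

theorem rv_lt (h : G.WF) {o : ℕ} (k : o < G.nd) : rv o < G.nd := by
  have := h.even; unfold rv; split_ifs <;> omega
theorem hd_lt (h : G.WF) {o : ℕ} (k : o < G.nd) : G.hd o < G.n := h.tl_lt _ (rv_lt h k)
theorem hd_rv (o : ℕ) : G.hd (rv o) = G.tl.get o := by rw [Gf.hd, rv_rv]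
theorem mt_lt (h : Cmb G d) {v : ℕ} (k : v < G.n) : d.mt.get v < G.n :=
  mem_range.1 (h.isM v (mem_range.2 k)).1
theorem mt_mt (h : Cmb G d) {v : ℕ} (k : v < G.n) : d.mt.get (d.mt.get v) = v :=
  (h.isM v (mem_range.2 k)).2.1

theorem mem_vs1 (h : Cmb G d) {c : ℕ} (hc : isC G d c) (v : ℕ) : v ∈ vs1 d c ↔ v < G.n ∧
    ((d.st.get v = 2 ∧ d.cls.get v = c) ∨ (d.st.get v = 1 ∧ d.cls.get (d.mt.get v) = c)) := by
  obtain ⟨b1, b2, b3⟩ := (h.mem c hc _).1 (h.bs c hc).1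
  have key : v < G.n → d.st.get v = 1 → d.cls.get (d.mt.get v) = c → v = d.mt.get (d.bs.get c) :=
    fun a b e => by rw [← e, (h.inn v a b).2, mt_mt h a]
  unfold vs1
  split_ifs with k
  · rw [List.mem_cons, h.mem c hc]
    refine ⟨?_, fun ⟨a, b⟩ => b.elim (fun b => .inr ⟨a, b⟩) fun b => .inl (key a b.1 b.2)⟩
    rintro (rfl | a)
    · exact ⟨mt_lt h b1, .inr ⟨k, by rw [mt_mt h b1, b3]⟩⟩
    · exact ⟨a.1, .inl a.2⟩
  · rw [h.mem c hc]
    exact ⟨fun a => ⟨a.1, .inl a.2⟩, fun ⟨a, b⟩ => ⟨a, b.resolve_right fun b =>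
      k (key a b.1 b.2 ▸ b.1)⟩⟩

theorem sp_disR (w : G.WF) (h : Cmb G d) (h1 : ∀ c ∈ Y, isC G d c) (h2 : Y.Nodup) :
    Sp g (disR G d Y) fun r t => Dis G d Y r.1 r.2 ∧ t ≤ 13 * r.1.length + 2 * Y.length + 5 := by
  refine (sp_flatMapP _ _).bind fun V t1 k1 => (sp_flatMapP _ _).bind fun O t2 k2 =>
    (sp_rvApp _ _).bind fun O' t3 k3 => ?_
  have mV : ∀ v, v ∈ V ↔ inV G d Y v := fun v => by
    rw [k1.1, List.mem_flatMap, inV]
    constructor
    · rintro ⟨c, a, b⟩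
      obtain ⟨b1, b2⟩ := (mem_vs1 h (h1 c a) v).1 b
      exact ⟨b1, b2.imp (fun b => ⟨b.1, by rw [b.2]; exact a⟩) fun b => ⟨b.1, by rw [b.2]; exact a⟩⟩
    · rintro ⟨a, b | b⟩
      exacts [⟨_, b.2, (mem_vs1 h (h1 _ b.2) v).2 ⟨a, .inl ⟨b.1, rfl⟩⟩⟩,
        ⟨_, b.2, (mem_vs1 h (h1 _ b.2) v).2 ⟨a, .inr ⟨b.1, rfl⟩⟩⟩]
  have mO : ∀ o, o ∈ O ↔ o < G.nd ∧ G.tl.get o ∈ V := fun o => by
    rw [k2.1, List.mem_flatMap]
    exact ⟨fun ⟨v, a, b⟩ => by
        obtain ⟨b1, b2⟩ := (w.mem v ((mV v).1 a).1 o).1 b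
        exact ⟨b1, b2 ▸ a⟩,
      fun ⟨a, b⟩ => ⟨_, b, (w.mem _ (w.tl_lt o a) o).2 ⟨a, rfl⟩⟩⟩
  have lO : O.length ≤ 3 * V.length := by
    rw [k2.1, List.length_flatMap, mul_comm, ← smul_eq_mul, ← List.length_map]
    exact List.sum_le_card_nsmul _ _ fun x hx => by
      obtain ⟨v, -, rfl⟩ := List.mem_map.1 hx
      exact w.deg v
  refine ⟨⟨h1, h2, ?_, mV, ?_, fun o => ?_, ?_⟩, ?_⟩
  · rw [k1.1, List.nodup_flatMap]
    refine ⟨fun c hc => ?_, h2.imp_of_mem fun {a b} ha hb ne x k1 k2 => ?_⟩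
    · unfold vs1
      split_ifs with k
      · refine List.nodup_cons.2 ⟨fun q => ?_, h.nodup c (h1 c hc)⟩
        have := ((h.mem c (h1 c hc) _).1 q).2.1
        omega
      · exact h.nodup c (h1 c hc)
    · have a1 := ((mem_vs1 h (h1 a ha) x).1 k1).2
      have a2 := ((mem_vs1 h (h1 b hb) x).1 k2).2
      omega
  · rw [k1.1, List.length_flatMap]
    refine List.sum_le_sum fun c hc => ?_
    rw [h.cw c (h1 c hc)]
    unfold vs1
    split_ifs <;> simp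
  · change o ∈ O' ↔ _
    rw [k3.1, List.mem_append, rvL, List.mem_reverse, List.mem_map, mO]
    constructor
    · rintro (⟨p, a, rfl⟩ | a)
      · exact ⟨rv_lt w ((mO p).1 a).1, .inr (hd_rv p ▸ ((mO p).1 a).2)⟩
      · exact ⟨a.1, .inl a.2⟩
    · rintro ⟨a, b | b⟩
      exacts [.inr ⟨a, b⟩, .inl ⟨rv o, (mO _).2 ⟨rv_lt w a, b⟩, rv_rv o⟩]
  · change O'.length ≤ 6 * V.length
    rw [k3.1, List.length_append, rvL, List.length_reverse, List.length_map]; omega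
  · have a1 := k1.2; have a2 := k2.2; have a3 := k3.2
    rw [← k1.1] at a1; rw [← k2.1] at a2
    change _ ≤ 13 * V.length + _ + _
    omega

end Crest.Agent.N325.Bl
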