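import Crest.Agent.N325.Bl.Dij
import Crest.Agent.N325.P2.Dual
import Crest.Agent.N325.P2.Defs2

/-!
# Row 325, part II (helper70): UNLABEL — the program, the traversal graph and its balls
-/

set_option autoImplicit false
open Finset

namespace Crest.Agent.N325.Bl

open Crest.Agent.N325.P2 Crest.Agent.N325.Ip Crest.Agent.N325.Dj

variable {T : Type}

/-- nodes: `u < n` = outer vertex, `n + c` = class; arcs: class → members (length `0`), member →
class of the mate of an inner head of a plain arc -/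
def trav (E : Env T) (s : S T) (L : ℕ) : Dg where
  adj x := if x < E.G.n then E.G.adj.get x else s.2.mem.get (x - E.G.n)
  ok x e := if x < E.G.n then s.2.pr.get e && decide (s.2.st.get (E.G.hd e) = 1) else true
  hd x e := if x < E.G.n then min (E.G.n + s.2.cls.get (s.2.mt.get (E.G.hd e))) E.C.M else e
  ln x e := if x < E.G.n then L / (s.1.rf.get (5 * e)).toNat + 1 else 0

/-- capacities -/
def tcap (E : Env T) (s : S T) (x e : ℕ) : ℕ :=
  if x < E.G.n then (s.1.rf.get (5 * e)).toNat else 0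

/-- the class of a node -/
def clO (n x : ℕ) : Option ℕ := if x < n then none else some (x - n)

/-- **UNLABEL** -/
def unl (drop : S T → List ℕ → R (S T)) (E : Env T) (s : S T) (c : ℕ) : R (S T) := do
  let L ← nat (10 * (E.P.D / (E.C.Ph * E.C.Z) + 1) * E.C.K * E.C.B)
  let c' ← nat (E.G.n + c)
  let b ← nat (E.C.kb + E.C.K)
  let p ← ballD (trav E s L) (tcap E s) b E.C.fu E.C.K E.C.kb E.C.B c'
  let Y ← filterMapP (clO E.G.n) p.2.1
  drop s Y

variable {E : Env T} {s : S T} {L c r : ℕ} {B : Bal}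

theorem mem_clO {n c : ℕ} {l : List ℕ} : c ∈ l.filterMap (clO n) ↔ n + c ∈ l := by
  rw [List.mem_filterMap]
  refine ⟨fun ⟨x, a, b⟩ => ?_, fun a => ⟨_, a, by simp [clO]⟩⟩
  unfold clO at b
  split_ifs at b with k
  cases b
  rwa [Nat.add_sub_cancel' (not_lt.1 k)]

theorem nodup_clO {n : ℕ} {l : List ℕ} (h : l.Nodup) : (l.filterMap (clO n)).Nodup :=
  h.filterMap fun a a' b k k' => by
    unfold clO at k k'
    split_ifs at k k' <;> simp at k k'
    omega

/-- an arc out of an outer vertex -/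
theorem trav_out (w : E.G.WF) (h : Cmb E.G s.2) (hM : 2 * E.G.n ≤ E.C.M) {x e : ℕ} (hx : x < E.G.n)
    (he : e ∈ (trav E s L).adj x) (ho : (trav E s L).ok x e = true) :
    e < E.G.nd ∧ E.G.tl.get e = x ∧ s.2.pr.get e = true ∧ s.2.st.get (E.G.hd e) = 1 ∧
      isC E.G s.2 (s.2.cls.get (s.2.mt.get (E.G.hd e))) ∧
      (trav E s L).hd x e = E.G.n + s.2.cls.get (s.2.mt.get (E.G.hd e)) := by
  simp only [trav, if_pos hx, Bool.and_eq_true, decide_eq_true_eq] at he ho ⊢
  obtain ⟨a, b⟩ := (w.mem x hx e).1 he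
  have k := (h.entry (w.hd_lt a) (.inl ho.2)).1
  exact ⟨a, b, ho.1, ho.2, k, min_eq_left (by have := k.1; omega)⟩

/-- the nodes that can be reached -/
theorem trav_wk (w : E.G.WF) (h : Cmb E.G s.2) (hM : 2 * E.G.n ≤ E.C.M) (hc : isC E.G s.2 c)
    {x d : ℕ} (k : Wk (trav E s L) [(E.G.n + c, 0)] x d) :
    (x < E.G.n → s.2.st.get x = 2 ∧ Wk (trav E s L) [(E.G.n + c, 0)] (E.G.n + s.2.cls.get x) d) ∧
      (¬x < E.G.n → isC E.G s.2 (x - E.G.n)) := by
  generalize hS : [(E.G.n + c, 0)] = S at k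
  induction k with
  | base k =>
    rw [← hS, List.mem_singleton, Prod.mk.injEq] at k
    obtain ⟨rfl, rfl⟩ := k
    exact ⟨fun a => by omega, fun _ => by rwa [Nat.add_sub_cancel_left]⟩
  | @step x d e k a b ih =>
    by_cases hx : x < E.G.n
    · obtain ⟨-, -, -, -, q1, q2⟩ := trav_out w h hM hx a b
      rw [q2]
      exact ⟨fun a => by omega, fun _ => by rwa [Nat.add_sub_cancel_left]⟩
    · simp only [trav, if_neg hx] at a ⊢
      obtain ⟨q1, q2, q3⟩ := (h.mem _ (ih.2 hx) e).1 a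
      refine ⟨fun _ => ⟨q2, ?_⟩, fun q => absurd q1 q⟩
      rw [q3, Nat.add_sub_cancel' (not_lt.1 hx)]
      exact k

theorem sum_cw {G : Gf} {d : Dt} (h : Cmb G d) :
    ∑ c ∈ (range G.n).filter (isC G d), d.cw.get c ≤ G.n := by
  have e := card_eq_sum_card_fiberwise (s := (range G.n).filter (d.st.get · = 2))
    (t := (range G.n).filter (isC G d)) (f := d.cls.get) fun v hv => by
      obtain ⟨a, b⟩ := mem_filter.1 hv
      have := h.out v (mem_range.1 a) b
      exact mem_filter.2 ⟨mem_range.2 this.1, this⟩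
  refine le_trans (sum_le_sum fun c hc => ?_) (e.ge.trans ((card_filter_le _ _).trans (by simp)))
  have k := (mem_filter.1 hc).2
  rw [h.cw c k, ← List.toFinset_card_of_nodup (h.nodup c k)]
  refine card_le_card fun v hv => ?_
  obtain ⟨a, b, e⟩ := (h.mem c k v).1 (List.mem_toFinset.1 hv)
  exact mem_filter.2 ⟨mem_filter.2 ⟨mem_range.2 a, b⟩, e⟩

/-- the volume of members `A` and classes `C` -/
theorem trav_vol (w : E.G.WF) (h : Cmb E.G s.2) {V A C : Finset ℕ} (hC : ∀ c ∈ C, isC E.G s.2 c)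
    (k : ∀ x ∈ V, (x < E.G.n → x ∈ A) ∧ (¬x < E.G.n → x - E.G.n ∈ C)) :
    ∑ x ∈ V, (1 + ((trav E s L).adj x).length) ≤ 4 * A.card + ∑ c ∈ C, wtC s.2 c := by
  rw [← sum_filter_add_sum_filter_not V (· < E.G.n)]
  refine Nat.add_le_add ?_ ?_
  · refine (sum_le_card_nsmul _ _ 4 fun x hx => ?_).trans ?_
    · simp only [trav, if_pos (mem_filter.1 hx).2]
      have := w.deg x; omega
    · rw [smul_eq_mul, mul_comm]
      exact Nat.mul_le_mul_left _ (card_le_card fun x hx =>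
        (k x (mem_filter.1 hx).1).1 (mem_filter.1 hx).2)
  · have i : Set.InjOn (· - E.G.n) (V.filter fun x => ¬x < E.G.n) := fun a ha b hb e => by
      have := (mem_filter.1 ha).2; have := (mem_filter.1 hb).2
      dsimp only at e; omega
    refine le_trans (le_of_eq ?_) (sum_le_sum_of_subset (s := (V.filter fun x => ¬x < E.G.n).image
      (· - E.G.n)) fun c hc => ?_)
    · rw [sum_image i]
      refine sum_congr rfl fun x hx => ?_
      obtain ⟨a, b⟩ := mem_filter.1 hx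
      simp only [trav, if_neg b, wtC]
      rw [h.cw _ (hC _ ((k x a).2 b)), add_comm]
    · obtain ⟨x, hx, rfl⟩ := mem_image.1 hc
      exact (k x (mem_filter.1 hx).1).2 (mem_filter.1 hx).2

section ball
variable (w : E.G.WF) (h : Cmb E.G s.2) (hM : 2 * E.G.n ≤ E.C.M) (hc : isC E.G s.2 c)
  (hB : IsBall (Wk (trav E s L) [(E.G.n + c, 0)]) r B)
include w h hM hc hB

theorem ball_cls {c' : ℕ} (k : E.G.n + c' ∈ B.1) : isC E.G s.2 c' := by
  have := (trav_wk w h hM hc (hB.dw _ k)).2 (by omega)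
  rwa [Nat.add_sub_cancel_left] at this

theorem ball_mem {x : ℕ} (hx : x < E.G.n) :
    x ∈ B.1 ↔ s.2.st.get x = 2 ∧ E.G.n + s.2.cls.get x ∈ B.1 := by
  rw [hB.mem, hB.mem]
  refine ⟨fun ⟨d, a, b⟩ => ?_, fun ⟨q, d, a, b⟩ => ⟨d, a, ?_⟩⟩
  · obtain ⟨q1, q2⟩ := (trav_wk w h hM hc b).1 hx
    exact ⟨q1, d, a, q2⟩
  · have n : ¬E.G.n + s.2.cls.get x < E.G.n := by omega
    have := b.step (e := x) (by
      simp only [trav, if_neg n, Nat.add_sub_cancel_left]
      exact (h.mem _ (h.out x hx q) x).2 ⟨hx, q, rfl⟩) (by simp only [trav, if_neg n])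
    simpa only [trav, if_neg n, add_zero] using this

theorem ball_vol : vol (trav E s L).adj B.1 ≤
    5 * ∑ c ∈ (B.1.filterMap (clO E.G.n)).toFinset, wtC s.2 c := by
  set Y := (B.1.filterMap (clO E.G.n)).toFinset
  have hY : ∀ c, c ∈ Y ↔ E.G.n + c ∈ B.1 := fun c => by rw [List.mem_toFinset, mem_clO]
  rw [vol, ← List.sum_toFinset _ hB.nd]
  refine (trav_vol w h (A := Y.biUnion fun c => (s.2.mem.get c).toFinset) (C := Y)
    (fun c k => ball_cls w h hM hc hB ((hY c).1 k)) fun x hx => ⟨fun k => ?_, fun k => ?_⟩).trans ?_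
  · obtain ⟨a, b⟩ := (ball_mem w h hM hc hB k).1 (List.mem_toFinset.1 hx)
    exact mem_biUnion.2 ⟨_, (hY _).2 b, List.mem_toFinset.2
      ((h.mem _ (h.out x k a) x).2 ⟨k, a, rfl⟩)⟩
  · rw [hY, Nat.add_sub_cancel' (not_lt.1 k)]; exact List.mem_toFinset.1 hx
  · have : (Y.biUnion fun c => (s.2.mem.get c).toFinset).card ≤ ∑ c ∈ Y, wtC s.2 c :=
      card_biUnion_le.trans (sum_le_sum fun c k => (List.toFinset_card_le _).trans (by
        rw [wtC, h.cw c (ball_cls w h hM hc hB ((hY c).1 k))]; omega))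
    omega

/-- the darts that leave the ball -/
theorem ball_cut : ∑ o ∈ (range E.G.nd).filter (fun o => s.2.pr.get o = true ∧
      s.2.cls.get (E.G.tl.get o) ∈ (B.1.filterMap (clO E.G.n)).toFinset ∧
      s.2.st.get (E.G.hd o) = 1 ∧
      s.2.cls.get (s.2.mt.get (E.G.hd o)) ∉ (B.1.filterMap (clO E.G.n)).toFinset),
      (s.1.rf.get (5 * o)).toNat ≤
    cut (trav E s L).adj (trav E s L).ok (trav E s L).hd (tcap E s) B.1 := by
  set Y := (B.1.filterMap (clO E.G.n)).toFinset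
  have hY : ∀ c, c ∈ Y ↔ E.G.n + c ∈ B.1 := fun c => by rw [List.mem_toFinset, mem_clO]
  rw [cut, ← List.sum_toFinset _ hB.nd, ← sum_fiberwise_of_maps_to (t := B.1.toFinset)
    (g := E.G.tl.get) fun o ho => by
      obtain ⟨a, b, q, -⟩ := mem_filter.1 ho
      rw [mem_range] at a
      exact List.mem_toFinset.2 ((ball_mem w h hM hc hB (w.tl_lt o a)).2
        ⟨(h.pr o a b).1, (hY _).1 q⟩)]
  refine sum_le_sum fun x _ => ?_
  by_cases hx : x < E.G.n
  swap
  · refine le_trans (le_of_eq (sum_eq_zero fun o ho => ?_)) (Nat.zero_le _)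
    obtain ⟨a, b⟩ := mem_filter.1 ho
    exact absurd (b ▸ w.tl_lt o (mem_range.1 (mem_filter.1 a).1)) hx
  have ea : (trav E s L).adj x = E.G.adj.get x := if_pos hx
  rw [ea, ← List.sum_toFinset _ (w.nodup x hx)]
  refine le_trans (sum_le_sum fun o ho => ?_) (sum_le_sum_of_subset fun o ho => ?_)
  · obtain ⟨a, b⟩ := mem_filter.1 ho
    obtain ⟨a1, a2, -, a3, a4⟩ := mem_filter.1 a
    have ok : (trav E s L).ok x o = true := by simp [trav, hx, a2, a3]
    rw [if_pos ⟨ok, by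
      rw [(trav_out w h hM hx (ea ▸ (w.mem x hx o).2 ⟨mem_range.1 a1, b⟩) ok).2.2.2.2.2, ← hY]
      exact a4⟩, tcap, if_pos hx]
  · obtain ⟨a, b⟩ := mem_filter.1 ho
    exact List.mem_toFinset.2 ((w.mem x hx o).2 ⟨mem_range.1 (mem_filter.1 a).1, b⟩)

/-- the duals of the classes of the ball -/
theorem ball_dual {y : ℕ → ℝ} {a : ℝ} (ha : 0 ≤ a)
    (hy : ∀ o < E.G.nd, s.2.pr.get o = true → s.2.st.get (E.G.hd o) = 1 →
      y (s.2.cls.get (E.G.tl.get o) + 1) - a * (L / (s.1.rf.get (5 * o)).toNat + 1 : ℕ) ≤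
        y (s.2.cls.get (s.2.mt.get (E.G.hd o)) + 1))
    {c' : ℕ} (k : E.G.n + c' ∈ B.1) : y (c + 1) - a * r ≤ y (c' + 1) := by
  have := (hB.dual (y := fun x => if x < E.G.n then y (s.2.cls.get x + 1) else y (x - E.G.n + 1))
    ha (fun x => ¬x < E.G.n → isC E.G s.2 (x - E.G.n))
    (fun _ => by rwa [Nat.add_sub_cancel_left]) (fun x e p a b => ?_) k).2
  · simpa using this
  by_cases hx : x < E.G.n
  · obtain ⟨q1, q2, q3, q4, q5, q6⟩ := trav_out w h hM hx a b
    rw [q6]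
    refine ⟨fun _ => by rwa [Nat.add_sub_cancel_left], ?_⟩
    have := hy e q1 q3 q4
    rw [q2] at this
    rw [if_pos hx, if_neg (by omega), Nat.add_sub_cancel_left]
    simpa only [trav, if_pos hx] using this
  · simp only [trav, if_neg hx] at a ⊢
    obtain ⟨q1, -, q3⟩ := (h.mem _ (p hx) e).1 a
    refine ⟨fun q => absurd q1 q, ?_⟩
    rw [if_pos q1, q3]; simp

end ball

end Crest.Agent.N325.Bl
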