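import Crest.Agent.N325.Bl.Trv
import Crest.Agent.N325.P2.UnlM

/-!
# Row 325, part II (helper70): UNLABEL meets its specification
-/

set_option autoImplicit false
open Finset

namespace Crest.Agent.N325.Bl

open Crest.Agent.N325.P2 Crest.Agent.N325.Ip Crest.Agent.N325.Dj

variable {T : Type} {X : Cx T}

theorem kb_le (h : X.Ok) : X.C.kb ≤ X.C.Z := by
  have a : (2 : ℝ) ^ X.C.kb ≤ X.Bd.Mu := by
    have := h.BD_le
    rw [← h.Mu]; exact_mod_cast (by rw [← h.B.1]; omega : 2 ^ X.C.kb ≤ X.C.M)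
  have b := Real.log_le_log (by positivity) a
  rw [Real.log_pow] at b
  have c := h.Lg_le
  have d := mul_le_mul_of_nonneg_left Real.log_two_gt_d9.le (Nat.cast_nonneg (α := ℝ) X.C.kb)
  have e : (0 : ℝ) ≤ X.C.kb := Nat.cast_nonneg _
  unfold Cx.Lg at c
  exact_mod_cast (by linarith : (X.C.kb : ℝ) ≤ X.C.Z)

theorem length_le_vol (adj : ℕ → List ℕ) (L : List ℕ) : L.length ≤ vol adj L := by
  have := List.card_nsmul_le_sum (L.map fun x => 1 + (adj x).length) 1 fun x hx => by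
    obtain ⟨y, -, rfl⟩ := List.mem_map.1 hx
    omega
  rwa [List.length_map, smul_eq_mul, mul_one] at this

/-- **UNLABEL** -/
theorem unlabSpec (h : X.Ok) {drop : S T → List ℕ → R (S T)} (hd : X.DropSpec drop) :
    X.UnlabSpec (unl drop X.toEnv) := by
  intro s N c i ro hq hc hp
  obtain ⟨y, hy⟩ := Du.Quiet.dual hq
  have w := h.wf
  have cm := i.cmb
  have nM := h.n_le_M; have MX := h.M_le_X; have BD := h.BD_le; have Z1 := h.Z.1
  have kZ := kb_le h; have PZ := h.PZ_pos; have cn := hc.1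
  have PD : X.C.Ph * X.C.Z ≤ X.P.D :=
    le_trans (Nat.le_mul_of_pos_right _ h.lam_pos) (by have := h.lam_le; omega)
  have P10 : 10 ≤ X.C.Ph := le_trans (by norm_num) h.Ph
  have ZD : X.C.Z ≤ X.P.D := le_trans (Nat.le_mul_of_pos_left _ (by omega)) PD
  have K1 : 1 ≤ X.C.K := Nat.pos_of_ne_zero fun e => by have := h.K; rw [e] at this; omega
  have B1 : 1 ≤ X.C.B := by rw [h.B.1]; exact Nat.two_pow_pos _
  unfold unl
  obtain ⟨q, eq⟩ : ∃ q, q = X.P.D / (X.C.Ph * X.C.Z) + 1 := ⟨_, rfl⟩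
  have q1 : 1 ≤ q := eq ▸ Nat.le_add_left _ _
  have q2 : X.P.D ≤ X.C.Ph * X.C.Z * q := eq ▸ (Nat.lt_mul_div_succ _ (by omega)).le
  have q3 : X.C.Ph * X.C.Z * q ≤ 2 * X.P.D := by
    have := Nat.mul_div_le X.P.D (X.C.Ph * X.C.Z)
    rw [eq, mul_add]; omega
  have q4 : q ≤ X.C.M := by have := Nat.div_le_self X.P.D (X.C.Ph * X.C.Z); omega
  rw [← eq]
  obtain ⟨L, eL⟩ : ∃ L, L = 10 * q * X.C.K * X.C.B := ⟨_, rfl⟩
  have L1 : 10 * (X.C.K * X.C.B) ≤ L := by
    rw [eL, mul_assoc (10 * q)]; exact Nat.mul_le_mul_right _ (by omega)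
  have L2 : X.C.B ≤ X.C.K * X.C.B := Nat.le_mul_of_pos_left _ K1
  have LA : L ≤ X.C.M * X.C.M * X.C.Z * X.C.Ph := by
    calc L = q * X.C.B * X.C.K * 10 := by rw [eL]; ring
      _ ≤ _ := by gcongr <;> omega
  have ML : X.C.M * L ≤ X.g.X := by
    refine le_trans ?_ h.gX
    rw [sq]
    refine Nat.mul_le_mul ?_ LA
    rw [mul_assoc, mul_assoc]
    exact Nat.le_mul_of_pos_right _ (Nat.mul_pos (by omega) (Nat.mul_pos (by omega) (by omega)))
  have LX : L ≤ X.g.X := le_trans (Nat.le_mul_of_pos_left _ (by omega)) ML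
  rw [← eL]
  refine sp_bind.2 (sp_nat.2 ⟨LX, sp_bind.2 (sp_nat.2 ⟨by omega, sp_bind.2 (sp_nat.2 ⟨by omega,
    ?_⟩)⟩)⟩)
  have hM : 2 * X.G.n ≤ X.C.M := by omega
  have near : ∀ o < X.G.nd, s.2.pr.get o = true → 0 < s.1.rf.get (5 * o) ∧
      N.X (5 * o) ≤ 2 * s.1.rf.get (5 * o) ∧ s.1.rf.get (5 * o) ≤ 2 * X.C.B := fun o a b => by
    have := i.rf_near h (i.arcs.plain a b).1
    omega
  have sb := sp_ballD (g := X.g) (G := trav X.toEnv s L) (cap := tcap X.toEnv s)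
    (B := X.C.kb + X.C.K) (fu := X.C.fu) (T := X.C.K) (K := X.C.kb) (Z := L + 2 * X.C.B)
    (s := X.G.n + c) (U := 6 * X.G.n)
    (range X.G.n ∪ ((range X.G.n).filter (isC X.G s.2)).image (X.G.n + ·)) K1
    (fun x d k => by
      by_cases hx : x < X.G.n
      · exact mem_union_left _ (mem_range.2 hx)
      · have := (trav_wk w cm hM hc k).2 hx
        exact mem_union_right _ (mem_image.2 ⟨_, mem_filter.2 ⟨mem_range.2 this.1, this⟩,
          Nat.add_sub_cancel' (not_lt.1 hx)⟩))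
    (by
      refine (trav_vol w cm (A := range X.G.n) (C := (range X.G.n).filter (isC X.G s.2))
        (fun c k => (mem_filter.1 k).2) fun x hx => ⟨mem_range.2, fun k => ?_⟩).trans ?_
      · obtain ⟨a, b, rfl⟩ := mem_image.1
          ((mem_union.1 hx).resolve_left fun b => k (mem_range.1 b))
        rwa [Nat.add_sub_cancel_left]
      · have a := sum_cw cm
        have b := card_filter_le (range X.G.n) (isC X.G s.2)
        simp only [wtC, sum_add_distrib, sum_const, card_range, smul_eq_mul, mul_one] at b ⊢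
        omega)
    (by have := h.K; omega)
    (fun x _ e a b => by
      by_cases hx : x < X.G.n
      · obtain ⟨a1, -, a2, -⟩ := trav_out w cm hM hx a b
        have := near e a1 a2
        have := Nat.mul_div_le L (s.1.rf.get (5 * e)).toNat
        simp only [trav, tcap, if_pos hx, mul_add]
        omega
      · simp [tcap, hx])
    (by rw [pow_add, mul_comm]; exact Nat.mul_lt_mul_of_pos_left Nat.lt_two_pow_self (by positivity))
    (by
      have := h.fu
      have : 1000 * 1 * (X.G.n + 1) ≤ 1000 * (X.C.K + 5) ^ 2 * (X.G.n + 1) := by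
        gcongr; exact Nat.one_le_pow _ _ (by omega)
      omega)
    (by omega) (by rw [← h.B.1]; omega)
    (le_trans (by
      rw [mul_comm]
      calc 6 * X.G.n * (L + 2 * X.C.B) ≤ 6 * X.G.n * (2 * L) := Nat.mul_le_mul_left _ (by omega)
        _ = 12 * X.G.n * L := by ring
        _ ≤ _ := Nat.mul_le_mul_right _ (by omega)) ML)
  rw [← h.B.1] at sb
  refine sb.bind fun p t1 ⟨r1, hB, r2, r3⟩ => (sp_filterMapP _ _).bind fun Y t2 ⟨eY, r4⟩ => ?_
  have hY : ∀ a, a ∈ Y ↔ X.G.n + a ∈ p.2.1 := fun a => by rw [eY, mem_clO]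
  have v := ball_vol w cm hM hc hB
  have ct := ball_cut w cm hM hc hB
  have v1 := hB.vol_pos (adj := (trav X.toEnv s L).adj) (.base List.mem_cons_self)
  have v2 := length_le_vol (trav X.toEnv s L).adj p.2.1
  rw [← eY] at v ct
  have ro' : X.RoomN s (90 * (X.G.n + 1)) := by
    have a : ((90 * (X.G.n + 1) : ℕ) : ℝ) ≤ X.Rm := by
      have := h.Rm; exact_mod_cast (by omega : 90 * (X.G.n + 1) ≤ X.Rm)
    have := mul_le_mul_of_nonneg_right a (by positivity : (0 : ℝ) ≤ 2 * X.k.AU)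
    unfold Cx.Room at ro; unfold Cx.RoomN; linarith
  refine (hd s N Y i ro' (i.flo h hq) (eY ▸ nodup_clO hB.nd)
    fun a k => ball_cls w cm hM hc hB ((hY a).1 k)).mono fun s' t3 ⟨N', i', _, _, _, _, _, k⟩ =>
      ⟨N', i', ?_⟩
  rw [show 0 + (0 + (0 + (t1 + (t2 + t3)))) = t1 + t2 + t3 by omega]
  generalize vol (trav X.toEnv s L).adj p.2.1 = V at *
  refine i.unl_post h hq hy (fun a ha => ?_) ⟨c, List.mem_toFinset.2 ((hY c).2 hB.centre)⟩ ?_ ?_ k
  · have ka := (hY a).1 (List.mem_toFinset.1 ha)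
    refine ⟨ball_cls w cm hM hc hB ka, ?_⟩
    have L0 : (0 : ℝ) < L := by exact_mod_cast (by omega : 0 < L)
    have D0 : (0 : ℝ) ≤ X.P.D := Nat.cast_nonneg _
    have f := ball_dual w cm hM hc hB (y := y) (a := 9 / 4 * (X.P.D / L)) (by positivity)
      (fun o a1 a2 a3 => le_trans ?_ (i.unl_fall h hq hy a1 a2 a3).2) ka
    · have a1 := i.unl_start h hy hc hp
      have a2 : (X.P.D : ℝ) / L * p.1 ≤ X.C.Ph * X.C.Z / 10 := by
        rw [div_mul_eq_mul_div, div_le_div_iff₀ L0 (by norm_num)]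
        exact_mod_cast (calc X.P.D * p.1 * 10
            ≤ X.C.Ph * X.C.Z * q * (X.C.K * X.C.B) * 10 := by gcongr
          _ = X.C.Ph * X.C.Z * L := by rw [eL]; ring)
      have : (0 : ℝ) ≤ X.C.Ph * X.C.Z := by positivity
      linarith
    · obtain ⟨ρ, e⟩ := Int.eq_ofNat_of_zero_le (near o a1 a2).1.le
      have ρ0 : 0 < ρ := by have := (near o a1 a2).1; omega
      rw [e, Int.toNat_natCast, Int.cast_natCast]
      have : (X.P.D : ℝ) / ρ ≤ X.P.D / L * (L / ρ + 1 : ℕ) := by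
        rw [div_mul_eq_mul_div, div_le_div_iff₀ (by exact_mod_cast ρ0) L0, mul_assoc]
        refine mul_le_mul_of_nonneg_left ?_ D0
        exact_mod_cast (mul_comm ρ _ ▸ (Nat.lt_mul_div_succ L ρ0).le)
      linarith
  · generalize cut _ _ _ _ p.2.1 = Q at *
    generalize ∑ a ∈ Y.toFinset, wtC s.2 a = W at *
    have a1 : ∑ o ∈ cutD X.G s.2 Y.toFinset, N.X (5 * o) ≤ (2 * Q : ℕ) := by
      refine le_trans ?_ (Int.ofNat_le.2 (Nat.mul_le_mul_left 2 ct))
      rw [mul_sum, Nat.cast_sum]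
      refine sum_le_sum fun o ho => ?_
      have := near o (mem_range.1 (mem_filter.1 ho).1) (mem_filter.1 ho).2.1
      omega
    have a2 : Q ≤ 10 * (10 * q * X.C.K + 2) * W := Nat.le_of_mul_le_mul_left
      (r2.trans (calc 2 * (L + 2 * X.C.B) * V ≤ 2 * (L + 2 * X.C.B) * (5 * W) := by gcongr
        _ = _ := by rw [eL]; ring)) B1
    have a3 : X.C.Ph * (2 * Q) ≤ X.P.D * W := Nat.le_of_mul_le_mul_left (c := X.C.Z)
      (calc X.C.Z * (X.C.Ph * (2 * Q))
          ≤ X.C.Z * (X.C.Ph * (2 * (10 * (10 * q * X.C.K + 2) * W))) := by gcongr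
        _ = (200 * X.C.K * (X.C.Ph * X.C.Z * q) + 40 * (X.C.Ph * X.C.Z)) * W := by ring
        _ ≤ (200 * X.C.K * (2 * X.P.D) + 40 * X.P.D) * W := by gcongr
        _ = (400 * X.C.K + 40) * (X.P.D * W) := by ring
        _ ≤ _ := Nat.mul_le_mul_right _ (by omega)) (by omega)
    exact (mul_le_mul_of_nonneg_left a1 (Nat.cast_nonneg _)).trans (by exact_mod_cast a3)
  · generalize ∑ a ∈ Y.toFinset, wtC s.2 a = W at *
    have a1 : 1000 * (X.C.K + 5) ≤ X.κ := le_trans (by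
      calc 1000 * (X.C.K + 5) = 1000 * 1 * (X.C.K + 5) ^ 1 := by ring
        _ ≤ 1000 * (X.k.AU + X.k.AQ + X.k.cl + 1) * (X.C.K + 5) ^ 2 := by gcongr <;> omega)
      ((Nat.le_add_left _ _).trans h.κ)
    have a2 : 3 * (X.C.K + 1) * (3 * (X.C.kb + X.C.K) + 10) ≤ 3 * (X.C.K + 1) * (7 * X.C.Z) :=
      Nat.mul_le_mul_left _ (by omega)
    calc t1 + t2 ≤ (3 * (X.C.K + 1) * (3 * (X.C.kb + X.C.K) + 10) + 7 * X.C.kb + 20) * V + 4 * V := by
          omega
      _ = (3 * (X.C.K + 1) * (3 * (X.C.kb + X.C.K) + 10) + (7 * X.C.kb + 24)) * V := by ring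
      _ ≤ (3 * (X.C.K + 1) * (7 * X.C.Z) + 8 * X.C.Z) * (5 * W) := by gcongr; omega
      _ = (105 * X.C.K + 145) * X.C.Z * W := by ring
      _ ≤ _ := by gcongr; omega

end Crest.Agent.N325.Bl
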