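import Crest.Agent.N325.Bl.Trv
import Crest.Agent.N325.Dj.Impl
import Crest.Agent.N325.P2.Rp

/-!
# Row 325, part II (helper70): UNLABEL is implementable
-/

set_option autoImplicit false

namespace Crest.Agent.N325.Bl

open Crest.Agent.N325.P2 Crest.Agent.N325.Ip Crest.Agent.N325.Dj

variable {α T : Type} [Rp α] [Rp T]

theorem impl_ballD {G : α → Dg} {cap : α → ℕ → ℕ → ℕ} {B fu T K H s : α → ℕ}
    (h1 : Pu true fun p : α × ℕ => (G p.1).adj p.2)
    (h2 : Pu false fun p : α × ℕ × ℕ => (G p.1).ok p.2.1 p.2.2)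
    (h3 : Pu true fun p : α × ℕ × ℕ => (G p.1).hd p.2.1 p.2.2)
    (h4 : Pu false fun p : α × ℕ × ℕ => (G p.1).ln p.2.1 p.2.2)
    (h5 : Pu true fun p : α × ℕ × ℕ => cap p.1 p.2.1 p.2.2) (hB : Pu true B) (hf : Pu true fu)
    (hT : Pu true T) (hK : Pu true K) (hH : Pu true H) (hs : Pu true s) :
    Impl fun a => ballD (G a) (cap a) (B a) (fu a) (T a) (K a) (H a) (s a) :=
  Impl.ball (adj := fun a => (G a).adj) (ok := fun a => (G a).ok) (hd := fun a => (G a).hd)
    (dij := fun a => dijB (G a) (B a) (fu a) (s a)) h1 h2 h3 h5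
    (Impl.bind (Impl.dij (G := fun p : α × ℕ => G p.1) (by impl) (by impl) (by impl) (by impl)
      (by impl) (by impl) (by impl) (by impl)) (by impl)) hT hK hH

/-- **UNLABEL** -/
theorem impl_unl {drop : Env T → S T → List ℕ → R (S T)}
    (hd : Impl fun p : Env T × S T × List ℕ => drop p.1 p.2.1 p.2.2) :
    Impl fun p : Env T × S T × ℕ => unl (drop p.1) p.1 p.2.1 p.2.2 := by
  unfold unl
  refine Impl.bind (by impl) (Impl.bind (by impl) (Impl.bind (by impl) (Impl.bind
    (impl_ballD ?_ ?_ ?_ ?_ ?_ (by impl) (by impl) (by impl) (by impl) (by impl) (by impl)) ?_)))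
  · unfold trav; impl
  · unfold trav; impl
  · unfold trav; impl
  · unfold trav; impl
  · unfold tcap; impl
  · unfold clO; impl

end Crest.Agent.N325.Bl
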